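import Vale.Agent.Lib.P087.Hilb
import Vale.Agent.Lib.P087.W.Ext

/-! P087 P/Op: words in `X(t)` applied to the vacuum. -/

namespace P087

variable {H : Type} [NormedAddCommGroup H] [InnerProductSpace ℂ H] [CompleteSpace H]
variable {T : TracialVN H}

section Fock

variable {I : Type} [DecidableEq I]

omit [CompleteSpace H] in
theorem wordOp_nil {κ : Type} (X : κ → H →L[ℂ] H) : wordOp X [] = 1 := rfl

omit [CompleteSpace H] in
theorem wordOp_cons {κ : Type} (X : κ → H →L[ℂ] H) (i : κ) (w : List κ) :
    wordOp X (i :: w) = X i * wordOp X w := by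
  unfold wordOp
  rw [List.map_cons, List.prod_cons]

omit [CompleteSpace H] in
theorem wordOp_append {κ : Type} (X : κ → H →L[ℂ] H) (v w : List κ) :
    wordOp X (v ++ w) = wordOp X v * wordOp X w := by
  unfold wordOp
  rw [List.map_append, List.prod_append]

theorem inner_y (F : FockSys T I) (i : I) (a b : H) : inner ℂ a (F.y i b) = inner ℂ (F.y i a) b := by
  have h := F.y_sa i
  have h2 := ContinuousLinearMap.adjoint_inner_left (F.y i) b a
  rw [← ContinuousLinearMap.star_eq_adjoint, h.star_eq] at h2
  exact h2.symm

/-- coefficients of words applied to the vacuum -/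
theorem inner_e_word (F : FockSys T I) (Q u : List I) :
    inner ℂ (F.e u) (wordOp F.y Q T.Ω) = (cf Q u : ℂ) := by
  induction Q generalizing u with
  | nil =>
    rw [wordOp_nil, one_apply_eq_self, ← F.e_nil, orthonormal_iff_ite.1 F.e_on]
    unfold cf
    split_ifs <;> simp
  | cons i Q ih =>
    rw [wordOp_cons, mul_apply_eq_comp, inner_y]
    cases u with
    | nil =>
      rw [F.act_nil, ih]
      rfl
    | cons j w =>
      have hcf : cf (i :: Q) (j :: w) = (if i = j then cf Q w else 0) + cf Q (i :: j :: w) := by
        rw [cf]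
      rw [F.act_cons, inner_add_left, ih, hcf]
      split_ifs with h
      · rw [ih, Complex.ofReal_add, add_comm]
      · rw [inner_zero_left, zero_add, add_zero]

end Fock

variable {r : ℕ}

theorem word_Xop (F : FockSys T (Let r)) (q : ℝ) (w : List (K r)) :
    wordOp (Xop F q) w = ext q (fun Q => wordOp F.y Q) w := by
  have key : ∀ (w : List (K r)) (A : H →L[ℂ] H), A * wordOp (Xop F q) w =
      ext q (fun Q => A * wordOp F.y Q) w := by
    intro w
    induction w with
    | nil => intro A; rfl
    | cons i w ih =>
      intro A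
      have h1 : A * wordOp (Xop F q) (i :: w) =
          ((mons q i).map fun cm => cm.1 • ((A * wordOp F.y cm.2) * wordOp (Xop F q) w)).sum := by
        rw [wordOp_cons]
        have h2 : ∀ (L : List (ℝ × List (Let r))) (B : H →L[ℂ] H),
            A * ((L.map fun cm => (cm.1 : ℂ) • wordOp F.y cm.2).sum * B) =
            (L.map fun cm => cm.1 • ((A * wordOp F.y cm.2) * B)).sum := by
          intro L B
          induction L with
          | nil => simp
          | cons a L ihL =>
            rw [List.map_cons, List.sum_cons, List.map_cons, List.sum_cons, add_mul, mul_add, ihL]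
            congr 1
            rw [smul_mul_assoc, mul_smul_comm, mul_assoc]
            rfl
        exact h2 _ _
      rw [h1]
      change _ = ((mons q i).map fun cm => cm.1 • ext q (fun Q => A * wordOp F.y (cm.2 ++ Q)) w).sum
      congr 1
      refine List.map_congr_left fun cm _ => ?_
      rw [ih (A * wordOp F.y cm.2)]
      congr 2
      funext Q
      rw [wordOp_append, mul_assoc]
  have h := key w 1
  simpa only [one_mul] using h

/-- a real linear functional of an operator -/
theorem inner_word_Xop (F : FockSys T (Let r)) (q : ℝ) (w : List (K r)) (a : H) :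
    inner ℂ a (wordOp (Xop F q) w T.Ω) = ext q (fun Q => inner ℂ a (wordOp F.y Q T.Ω)) w := by
  let φ : (H →L[ℂ] H) →ₗ[ℝ] ℂ :=
    { toFun := fun B => inner ℂ a (B T.Ω)
      map_add' := fun B B' => by rw [add_apply, inner_add_right]
      map_smul' := fun c B => by
        have h : (c • B) T.Ω = (c : ℂ) • B T.Ω := rfl
        rw [h, inner_smul_right, RingHom.id_apply]
        exact (Complex.real_smul).symm }
  have h := ext_map φ q (fun Q => wordOp F.y Q) w
  rw [← word_Xop] at h
  exact h

theorem ext_ofReal (q : ℝ) (f : List (Let r) → ℝ) (w : List (K r)) :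
    ext q (fun Q => (f Q : ℂ)) w = ((ext q f w : ℝ) : ℂ) :=
  (ext_map Complex.ofRealCLM.toLinearMap q f w).symm

theorem inner_e_X (F : FockSys T (Let r)) (q : ℝ) (w : List (K r)) (u : List (Let r)) :
    inner ℂ (F.e u) (wordOp (Xop F q) w T.Ω) = ((ext q (fun Q => cf Q u) w : ℝ) : ℂ) := by
  rw [inner_word_Xop, ← ext_ofReal]
  simp only [inner_e_word]

theorem tr_X (F : FockSys T (Let r)) (q : ℝ) (w : List (K r)) :
    T.tr (wordOp (Xop F q) w) = ((ext q mom w : ℝ) : ℂ) := by
  have h := inner_e_X F q w []
  rw [F.e_nil] at h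
  exact h

theorem ssum_ofReal {κ : Type} [DecidableEq κ] (j : κ) (f : List κ → List κ → ℝ) (w : List κ) :
    ssum j (fun a b => (f a b : ℂ)) w = ((ssum j f w : ℝ) : ℂ) := by
  unfold ssum
  push_cast
  refine Finset.sum_congr rfl fun l _ => ?_
  split_ifs <;> simp

theorem dq_X (F : FockSys T (Let r)) (q : ℝ) (j : K r) (w : List (K r)) :
    dq T (Xop F q) j w =
      ((ssum j (fun w₁ w₂ => ext q mom w₁ * ext q mom w₂) w : ℝ) : ℂ) := by
  rw [← ssum_ofReal]
  unfold dq ssum
  refine Finset.sum_congr rfl fun l _ => ?_
  split_ifs with h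
  · rw [tr_X, tr_X]
    push_cast
    rfl
  · rfl

theorem pert_X (F : FockSys T (Let r)) (t : ℝ) :
    pert (Xop F 0) (fun i => F.y (out i)) t = Xop F (Real.sqrt t) := by
  funext i
  unfold pert Xop
  rcases i with a | ⟨a, b, c⟩
  · simp [mons, wordOp]
  · simp [mons, wordOp]
    abel

end P087
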