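import Vale.Agent.Lib.P087.W.Cf

/-! P087 part P: moments of short words. -/

namespace P087

variable {I : Type} [DecidableEq I]

private theorem mom_nonneg' (Q : List I) : 0 ≤ mom Q := cf_nonneg Q []

theorem mom_le_one (Q : List I) (h : Q.length ≤ 2) : mom Q ≤ 1 := by
  match Q, h with
  | [], _ => simp [mom, cf]
  | [a], _ => simp [mom, cf]
  | [a, b], _ =>
    simp only [mom, cf, List.cons_ne_nil, if_false, add_zero, if_true]
    split_ifs <;> norm_num

/-- at most 2 non-crossing pairings of 4 letters (cases on the list, `simp [mom, cf]`, `split_ifs`) -/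
theorem mom_le_two (Q : List I) (h : Q.length ≤ 4) : mom Q ≤ 2 := by
  match Q, h with
  | [], _ => simp [mom, cf]
  | [a], _ => simp [mom, cf]
  | [a, b], _ =>
    simp only [mom, cf]
    split_ifs <;> norm_num
  | [a, b, c], _ =>
    simp only [mom, cf, List.cons_ne_nil, if_false, add_zero]
    split_ifs <;> norm_num
  | [a, b, c, d], _ =>
    simp only [mom, cf, List.cons_ne_nil, if_false, add_zero, if_true]
    split_ifs <;> norm_num

/-- product bound used for the vectors (iii) -/
theorem mom_mul_le_two (P Q : List I) (h : P.length + Q.length ≤ 4) : mom P * mom Q ≤ 2 := by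
  have hP := mom_nonneg' P
  have hQ := mom_nonneg' Q
  by_cases h1 : P.length ≤ 2
  · have a := mom_le_one P h1
    have b := mom_le_two Q (by omega)
    nlinarith
  · have a := mom_le_one Q (by omega)
    have b := mom_le_two P (by omega)
    nlinarith

/-- a palindrome of two words: the rainbow pairing -/
theorem one_le_mom_six (a b c : I) : 1 ≤ mom [a, b, c, c, b, a] := by
  simp only [mom, cf, List.cons_ne_nil, if_false, add_zero, if_true]
  split_ifs <;> norm_num

end P087
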