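import Vale.Agent.Lib.P087.P.GramC
import Vale.Agent.Lib.P087.P.Mom4

/-! P087 part P: the norm of the vectors (iii). -/

open scoped ENNReal

namespace P087

variable {H : Type} [NormedAddCommGroup H] [InnerProductSpace ℂ H] [CompleteSpace H]
variable {T : TracialVN H} {r : ℕ}

/-- lengths of the two parts of a word in `D_a Z_j` -/
private theorem NormC_len (a : Fin r) (j : J r) (uv : List (Fin r) × List (Fin r))
    (h : uv ∈ Dp a (Sum.inr j)) : uv.1.length + uv.2.length = 2 := by
  obtain ⟨b, c, d⟩ := j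
  unfold Dp at h
  simp only [List.mem_append] at h
  rcases h with ((((h | h) | h) | h) | h) | h <;>
  · split_ifs at h
    · rw [List.mem_singleton] at h
      rw [h]
      rfl
    · exact absurd h List.not_mem_nil

private theorem NormC_count (a : Fin r) (j : J r) : (Dp a (Sum.inr j)).length ≤ 6 := by
  obtain ⟨b, c, d⟩ := j
  unfold Dp
  simp only [List.length_append]
  have h : ∀ (p : Prop) [Decidable p] (x : List (Fin r) × List (Fin r)),
      (if p then [x] else []).length ≤ 1 := by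
    intro p _ x
    split_ifs <;> simp
  have h1 := h (a = b) ([], [c, d])
  have h2 := h (a = c) ([b], [d])
  have h3 := h (a = d) ([b, c], [])
  have h4 := h (a = d) ([], [c, b])
  have h5 := h (a = c) ([d], [b])
  have h6 := h (a = b) ([d, c], [])
  omega

omit [InnerProductSpace ℂ H] [CompleteSpace H] in
private theorem NormC_sum_le (L : List H) (C : ℝ) (h : ∀ x ∈ L, ‖x‖ ≤ C) :
    ‖L.sum‖ ≤ L.length * C := by
  induction L with
  | nil => simp
  | cons x L ih =>
    rw [List.sum_cons, List.length_cons]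
    push_cast
    have h1 := h x (by simp)
    have h2 := ih fun y hy => h y (by simp [hy])
    calc ‖x + L.sum‖ ≤ ‖x‖ + ‖L.sum‖ := norm_add_le _ _
      _ ≤ C + L.length * C := add_le_add h1 h2
      _ = (L.length + 1) * C := by ring

omit [CompleteSpace H] in
private theorem NormC_inner_zero (x : H) (L : List H) (h : ∀ y ∈ L, inner ℂ x y = 0) :
    inner ℂ x L.sum = 0 := by
  induction L with
  | nil => simp
  | cons y L ih =>
    rw [List.sum_cons, inner_add_right, h y (by simp), ih fun z hz => h z (by simp [hz]), add_zero]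

private theorem NormC_word (F : FockSys T (Let r)) (a : Fin r) (j : J r)
    (uv : List (Fin r) × List (Fin r)) (h : uv ∈ Dp a (Sum.inr j)) :
    ‖wordOp F.y (wC j uv) T.Ω‖ ^ 2 ≤ 2 := by
  have h2 : ‖wordOp F.y (wC j uv) T.Ω‖ ^ 2 =
      mom ((uv.1 ++ uv.1.reverse).map hid : List (Let r)) *
        mom ((uv.2.reverse ++ uv.2).map hid : List (Let r)) := by
    rw [← inner_self_eq_norm_sq (𝕜 := ℂ), inner_wC_wC, if_pos rfl]
    exact Complex.ofReal_re _
  rw [h2]
  refine mom_mul_le_two _ _ ?_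
  have h3 := NormC_len a j uv h
  simp only [List.length_map, List.length_append, List.length_reverse]
  omega

/-- each inner product is `≤ 2` (`mom_mul_le_two`), at most 6 words: `36 * 2` -/
theorem norm_VC (F : FockSys T (Let r)) (a : Fin r) (j : J r) : ‖VC F a j‖ ^ 2 ≤ 72 := by
  have h1 : ‖VC F a j‖ ≤ ((Dp a (Sum.inr j)).map fun uv =>
      wordOp F.y (wC j uv) T.Ω).length * √2 := by
    refine NormC_sum_le _ _ fun x hx => ?_
    obtain ⟨uv, huv, rfl⟩ := List.mem_map.1 hx
    exact Real.le_sqrt_of_sq_le (NormC_word F a j uv huv)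
  rw [List.length_map] at h1
  have h2 : ((Dp a (Sum.inr j)).length : ℝ) ≤ 6 := by exact_mod_cast NormC_count a j
  have h3 : ‖VC F a j‖ ≤ 6 * √2 := h1.trans (mul_le_mul_of_nonneg_right h2 (Real.sqrt_nonneg 2))
  calc ‖VC F a j‖ ^ 2 ≤ (6 * √2) ^ 2 := by gcongr
    _ = 72 := by rw [mul_pow, Real.sq_sqrt (by norm_num)]; norm_num

theorem VC_eq_zero (F : FockSys T (Let r)) (a : Fin r) (j : J r)
    (h : a ≠ j.1 ∧ a ≠ j.2.1 ∧ a ≠ j.2.2) : VC F a j = 0 := by
  obtain ⟨b, c, d⟩ := j
  obtain ⟨h1, h2, h3⟩ := h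
  unfold VC
  have h4 : Dp a (Sum.inr (b, c, d)) = [] := by
    simp only at h1 h2 h3
    simp only [Dp, if_neg h1, if_neg h2, if_neg h3, List.append_nil]
  rw [h4]
  rfl

private theorem NormC_orth (F : FockSys T (Let r)) (a : Fin r) (j j' : J r) (h : j ≠ j') :
    inner ℂ (VC F a j) (VC F a j') = 0 := by
  unfold VC
  refine NormC_inner_zero _ _ fun y hy => ?_
  obtain ⟨uv', _, rfl⟩ := List.mem_map.1 hy
  rw [← inner_conj_symm]
  rw [NormC_inner_zero, map_zero]
  intro x hx
  obtain ⟨uv, _, rfl⟩ := List.mem_map.1 hx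
  rw [inner_wC_wC, if_neg (Ne.symm h)]
  simp

private theorem NormC_sums (f : Fin r → ℝ) :
    (∑ j : J r, f j.1 = (r : ℝ) ^ 2 * ∑ b, f b) ∧ (∑ j : J r, f j.2.1 = (r : ℝ) ^ 2 * ∑ b, f b) ∧
      (∑ j : J r, f j.2.2 = (r : ℝ) ^ 2 * ∑ b, f b) := by
  simp only [Fintype.sum_prod_type, Finset.sum_const, Finset.card_univ, Fintype.card_fin,
    Fintype.card_prod, Nat.cast_mul, nsmul_eq_mul, ← Finset.mul_sum]
  refine ⟨?_, ?_, ?_⟩ <;> ring

/-- at most `3 r^2` indices `j` contain `a`; orthogonality over `j` -/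
theorem norm_XiC (F : FockSys T (Let r)) (a : Fin r) : ‖XiC F a‖ ^ 2 ≤ 244 * (r : ℝ) ^ 2 := by
  have hr : (1 : ℝ) ≤ r := by exact_mod_cast a.pos
  have h1 : inner ℂ (F.e [hid a]) (∑ j : J r, VC F a j) = 0 := by
    rw [inner_sum]
    refine Finset.sum_eq_zero fun j _ => ?_
    unfold VC
    refine NormC_inner_zero _ _ fun y hy => ?_
    obtain ⟨uv, _, rfl⟩ := List.mem_map.1 hy
    exact inner_hid_wC F a j uv
  have h2 : ‖F.e [hid a]‖ = 1 := F.e_on.1 _
  have h3 : ‖∑ j : J r, VC F a j‖ ^ 2 = ∑ j : J r, ‖VC F a j‖ ^ 2 := by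
    have h4 : inner ℂ (∑ j : J r, VC F a j) (∑ j : J r, VC F a j) =
        ∑ j : J r, inner ℂ (VC F a j) (VC F a j) := by
      rw [sum_inner]
      refine Finset.sum_congr rfl fun j _ => ?_
      rw [inner_sum, Finset.sum_eq_single j]
      · intro j' _ hj'
        exact NormC_orth F a j j' (Ne.symm hj')
      · intro h
        exact absurd (Finset.mem_univ j) h
    have h5 := congrArg Complex.re h4
    rw [Complex.re_sum] at h5
    have h6 : ∀ x : H, (inner ℂ x x).re = ‖x‖ ^ 2 := fun x => inner_self_eq_norm_sq (𝕜 := ℂ) x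
    simpa only [h6] using h5
  have h5 : ∀ j : J r, ‖VC F a j‖ ^ 2 ≤ 72 * ((if a = j.1 then 1 else 0) +
      (if a = j.2.1 then 1 else 0) + (if a = j.2.2 then 1 else 0)) := by
    intro j
    by_cases h : a ≠ j.1 ∧ a ≠ j.2.1 ∧ a ≠ j.2.2
    · rw [VC_eq_zero F a j h, norm_zero, if_neg h.1, if_neg h.2.1, if_neg h.2.2]
      norm_num
    · refine (norm_VC F a j).trans ?_
      have h6 : (1 : ℝ) ≤ (if a = j.1 then 1 else 0) +
          (if a = j.2.1 then 1 else 0) + (if a = j.2.2 then 1 else 0) := by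
        by_cases e1 : a = j.1
        · rw [if_pos e1]
          split_ifs <;> norm_num
        · by_cases e2 : a = j.2.1
          · rw [if_pos e2]
            split_ifs <;> norm_num
          · by_cases e3 : a = j.2.2
            · rw [if_pos e3]
              split_ifs <;> norm_num
            · exact absurd ⟨e1, e2, e3⟩ h
      linarith
  have h7 : ∑ j : J r, ‖VC F a j‖ ^ 2 ≤ 216 * (r : ℝ) ^ 2 := by
    refine (Finset.sum_le_sum fun j _ => h5 j).trans ?_
    obtain ⟨c1, c2, c3⟩ := NormC_sums (fun b : Fin r => if a = b then (1 : ℝ) else 0)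
    have c0 : ∑ b : Fin r, (if a = b then (1 : ℝ) else 0) = 1 := by simp
    rw [c0] at c1 c2 c3
    rw [← Finset.mul_sum, Finset.sum_add_distrib, Finset.sum_add_distrib, c1, c2, c3]
    linarith
  unfold XiC
  rw [@norm_sub_sq ℂ, h1, h2, h3]
  simp only [map_zero, mul_zero, sub_zero, one_pow]
  nlinarith
end P087
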