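import Vale.Agent.Lib.P087.P.Op

/-! P087 part P: the tuple `X(t)` as operators. -/

open scoped ENNReal

namespace P087

variable {H : Type} [NormedAddCommGroup H] [InnerProductSpace ℂ H] [CompleteSpace H]
variable {T : TracialVN H} {r : ℕ}

private theorem tup_word_mem (F : FockSys T (Let r)) (w : List (Let r)) :
    wordOp F.y w ∈ T.M.toStarSubalgebra := by
  induction w with
  | nil =>
    rw [wordOp_nil]
    exact one_mem _
  | cons i w ih =>
    rw [wordOp_cons]
    exact mul_mem (F.y_mem i) ih

theorem Xop_mem (F : FockSys T (Let r)) (q : ℝ) (i : K r) : Xop F q i ∈ T.M := by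
  change Xop F q i ∈ T.M.toStarSubalgebra
  unfold Xop
  refine list_sum_mem fun x hx => ?_
  rw [List.mem_map] at hx
  obtain ⟨cm, _, rfl⟩ := hx
  exact T.M.toStarSubalgebra.smul_mem (tup_word_mem F cm.2) (cm.1 : ℂ)

/-- (`x_a x_b x_c + x_c x_b x_a` is self-adjoint) -/
theorem Xop_sa (F : FockSys T (Let r)) (q : ℝ) (i : K r) : IsSelfAdjoint (Xop F q i) := by
  have hy : ∀ j, star (F.y j) = F.y j := fun j => (F.y_sa j).star_eq
  have hc : ∀ c : ℝ, star (c : ℂ) = (c : ℂ) := fun c => by
    rw [Complex.star_def, Complex.conj_ofReal]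
  unfold IsSelfAdjoint Xop
  rcases i with a | ⟨a, b, c⟩
  · simp only [mons, List.map_cons, List.map_nil, List.sum_cons, List.sum_nil, wordOp,
      List.prod_cons, List.prod_nil, mul_one, add_zero, star_add, star_smul, hy, hc]
  · simp only [mons, List.map_cons, List.map_nil, List.sum_cons, List.sum_nil, wordOp,
      List.prod_cons, List.prod_nil, mul_one, add_zero, star_add, star_smul, star_mul, hy, hc,
      mul_assoc]
    abel

end P087
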