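import Vale.Agent.Lib.P087.P.DefC

/-! P087 part P: the vectors (iii) satisfy the conjugate relation. -/

open scoped ENNReal

namespace P087

variable {H : Type} [NormedAddCommGroup H] [InnerProductSpace ℂ H] [CompleteSpace H]
variable {T : TracialVN H} {r : ℕ}

private theorem VecC_ssum_hid {A : Type} [AddCommMonoid A] (j : J r) (v : List (Fin r)) :
    ∀ F : List (Let r) → List (Let r) → A, ssum (inn j) F (v.map hid) = 0 := by
  induction v with
  | nil =>
    intro F
    rw [List.map_nil, ssum_nil]
  | cons a v ih =>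
    intro F
    rw [List.map_cons, ssum_cons, ih, if_neg (by simp), add_zero]

private theorem VecC_mom (j : J r) (u v : List (Fin r)) (Q : List (Let r)) :
    mom ((v.map hid ++ inn j :: u.map hid) ++ Q) =
      ssum (inn j) (fun Q₁ Q₂ => mom (u.map hid ++ Q₁) * mom (Q₂ ++ v.map hid)) Q := by
  have h1 : (v.map hid ++ inn j :: u.map hid) ++ Q =
      v.map hid ++ (inn j :: (u.map hid ++ Q)) := by simp
  rw [h1, mom_comm, List.cons_append, mom_cons, List.append_assoc, ssum_append,
    VecC_ssum_hid j u, zero_add, ssum_append, VecC_ssum_hid j v, add_zero]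

/-- `τ(v s_j u P) = Σ_{P = A X_j C} τ(u A) τ(C v)`
(`inner_word_X`, `mom_comm`, `mom_cons`, `ssum_append`, `ext_ssum_inn`) -/
theorem inner_wC_X (F : FockSys T (Let r)) (q : ℝ) (j : J r) (uv : List (Fin r) × List (Fin r))
    (w : List (K r)) :
    inner ℂ (wordOp F.y (wC j uv) T.Ω) (wordOp (Xop F q) w T.Ω) =
      ((ssum (Sum.inr j) (fun w₁ w₂ => ext q (fun Q => mom (Q ++ uv.1.map hid)) w₁ *
        ext q (fun Q => mom (uv.2.map hid ++ Q)) w₂) w : ℝ) : ℂ) := by
  rw [inner_Xop F q (wordOp F.y (wC j uv) T.Ω) (fun Q => mom ((wC j uv).reverse ++ Q))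
    (fun Q => inner_word_word F (wC j uv) Q)]
  congr 1
  have h1 : (wC j uv).reverse = uv.2.map hid ++ inn j :: uv.1.map hid := by
    unfold wC
    simp [List.map_reverse]
  rw [h1]
  simp_rw [VecC_mom]
  rw [ext_ssum_inn q j (fun Q => mom (uv.1.map hid ++ Q)) (fun Q => mom (Q ++ uv.2.map hid))]
  have h2 : (fun Q : List (Let r) => mom (uv.1.map hid ++ Q)) =
      fun Q => mom (Q ++ uv.1.map hid) := funext fun Q => mom_comm _ _
  have h3 : (fun Q : List (Let r) => mom (Q ++ uv.2.map hid)) =
      fun Q => mom (uv.2.map hid ++ Q) := funext fun Q => mom_comm _ _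
  rw [h2, h3]

/-- (`inner_e_X`, `cf_split` with empty words, `ext_ssum_hid`) -/
theorem inner_hid_X (F : FockSys T (Let r)) (q : ℝ) (a : Fin r) (w : List (K r)) :
    inner ℂ (F.e [hid a]) (wordOp (Xop F q) w T.Ω) =
      ((∑ l : Fin w.length, ((Dp a w[l]).map fun uv =>
        ext q (fun Q => mom (Q ++ uv.1.map hid)) (w.take l) *
        ext q (fun Q => mom (uv.2.map hid ++ Q)) (w.drop (l + 1))).sum : ℝ) : ℂ) := by
  rw [inner_e_X]
  congr 1
  have h1 : ∀ Q : List (Let r), cf Q [hid a] =
      ssum (hid a) (fun Q₁ Q₂ => mom Q₁ * mom Q₂) Q := fun Q => cf_split Q [] [] (hid a)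
  simp_rw [h1]
  exact ext_ssum_hid q a mom mom w

private theorem VecC_list_sum {X ι : Type} [Fintype ι] (L : List X) (G : X → ι → ℝ) :
    (L.map fun x => ∑ l, G x l).sum = ∑ l, (L.map fun x => G x l).sum := by
  induction L with
  | nil => simp
  | cons x L ih =>
    simp only [List.map_cons, List.sum_cons, ih, Finset.sum_add_distrib]

private theorem VecC_list_if {X : Type} (L : List X) (G : X → ℝ) (P : Prop) [Decidable P] :
    (L.map fun x => if P then G x else 0).sum = if P then (L.map G).sum else 0 := by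
  by_cases h : P
  · simp only [if_pos h]
  · simp only [if_neg h]
    simp

private theorem VecC_real (a : Fin r)
    (F : List (Fin r) × List (Fin r) → List (K r) → List (K r) → ℝ) (w : List (K r)) :
    (∑ l : Fin w.length, ((Dp a w[l]).map fun uv => F uv (w.take l) (w.drop (l + 1))).sum) -
      ∑ j : J r, ((Dp a (Sum.inr j)).map fun uv => ssum (Sum.inr j) (F uv) w).sum =
      ssum (Sum.inl a) (F ([], [])) w := by
  have h1 : ∀ j : J r, ((Dp a (Sum.inr j)).map fun uv => ssum (Sum.inr j) (F uv) w).sum =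
      ∑ l : Fin w.length, if w[l] = Sum.inr j then
        ((Dp a (Sum.inr j)).map fun uv => F uv (w.take l) (w.drop (l + 1))).sum else 0 := by
    intro j
    simp_rw [ssum_fin]
    rw [VecC_list_sum]
    refine Finset.sum_congr rfl fun l _ => ?_
    exact VecC_list_if _ _ _
  simp_rw [h1]
  rw [Finset.sum_comm, ← Finset.sum_sub_distrib, ssum_fin]
  refine Finset.sum_congr rfl fun l _ => ?_
  generalize w[l] = i
  rcases i with b | j'
  · have h2 : ∑ j : J r, (if (Sum.inl b : K r) = Sum.inr j then
        ((Dp a (Sum.inr j)).map fun uv => F uv (w.take l) (w.drop (l + 1))).sum else 0) = 0 := by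
      refine Finset.sum_eq_zero fun j _ => ?_
      rw [if_neg (by simp)]
    rw [h2, sub_zero]
    have h3 : Dp a (Sum.inl b) = if a = b then [([], [])] else [] := rfl
    rw [h3]
    by_cases h : a = b
    · subst h
      simp
    · rw [if_neg h, if_neg (fun e => h (Sum.inl.inj e).symm)]
      simp
  · have h2 : ∑ j : J r, (if (Sum.inr j' : K r) = Sum.inr j then
        ((Dp a (Sum.inr j)).map fun uv => F uv (w.take l) (w.drop (l + 1))).sum else 0) =
        ((Dp a (Sum.inr j')).map fun uv => F uv (w.take l) (w.drop (l + 1))).sum := by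
      rw [Finset.sum_eq_single j']
      · rw [if_pos rfl]
      · intro j _ hj
        rw [if_neg (fun e => hj (Sum.inr.inj e).symm)]
      · intro h
        exact absurd (Finset.mem_univ _) h
    rw [h2, sub_self, if_neg (by simp)]

omit [CompleteSpace H] in
private theorem VecC_inner_list {X : Type} (L : List X) (g : X → H) (v : H) :
    inner ℂ (L.map g).sum v = (L.map fun x => inner ℂ (g x) v).sum := by
  induction L with
  | nil => simp
  | cons x L ih =>
    simp only [List.map_cons, List.sum_cons, inner_add_left, ih]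

private theorem VecC_cast_list {X : Type} (L : List X) (g : X → ℝ) :
    (((L.map g).sum : ℝ) : ℂ) = (L.map fun x => ((g x : ℝ) : ℂ)).sum := by
  induction L with
  | nil => simp
  | cons x L ih =>
    simp only [List.map_cons, List.sum_cons, Complex.ofReal_add, ih]

/-- the vector (iii) satisfies the conjugate relation (`ssum_fin`, `dq_X`; sum over positions) -/
theorem inner_XiC_X (F : FockSys T (Let r)) (q : ℝ) (a : Fin r) (w : List (K r)) :
    inner ℂ (XiC F a) (wordOp (Xop F q) w T.Ω) = dq T (Xop F q) (Sum.inl a) w := by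
  have hV : ∀ j : J r, inner ℂ (VC F a j) (wordOp (Xop F q) w T.Ω) =
      ((((Dp a (Sum.inr j)).map fun uv => ssum (Sum.inr j)
        (fun w₁ w₂ => ext q (fun Q => mom (Q ++ uv.1.map hid)) w₁ *
        ext q (fun Q => mom (uv.2.map hid ++ Q)) w₂) w).sum : ℝ) : ℂ) := by
    intro j
    unfold VC
    rw [VecC_inner_list, VecC_cast_list]
    congr 1
    refine List.map_congr_left fun uv _ => ?_
    exact inner_wC_X F q j uv w
  unfold XiC
  rw [inner_sub_left, sum_inner, inner_hid_X, Finset.sum_congr rfl (fun j _ => hV j), dq_X,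
    ← Complex.ofReal_sum, ← Complex.ofReal_sub]
  congr 1
  have h := VecC_real a (fun uv w₁ w₂ => ext q (fun Q => mom (Q ++ uv.1.map hid)) w₁ *
    ext q (fun Q => mom (uv.2.map hid ++ Q)) w₂) w
  rw [h]
  simp

end P087
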