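import Mathlib

/-! P087: section 4, integration of the bounds on the free Fisher information. -/

open scoped ENNReal Topology
open MeasureTheory Filter Set

namespace P087

theorem lint_Ioi {F f : ℝ → ℝ} {a b : ℝ} (hd : ∀ x ∈ Ici a, HasDerivAt F (f x) x)
    (hpos : ∀ x ∈ Ioi a, 0 ≤ f x) (hlim : Tendsto F atTop (𝓝 b)) :
    ∫⁻ x in Ioi a, ENNReal.ofReal (f x) = ENNReal.ofReal (b - F a) := by
  have hint : IntegrableOn f (Ioi a) := integrableOn_Ioi_deriv_of_nonneg' hd hpos hlim
  rw [← integral_Ioi_of_hasDerivAt_of_nonneg' hd hpos hlim,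
    ofReal_integral_eq_lintegral_ofReal hint]
  exact (ae_restrict_iff' measurableSet_Ioi).mpr (Eventually.of_forall hpos)

/-- the integral of `r/t - r/(1+t)` -/
theorem lint_log {r δ : ℝ} (hr : 0 ≤ r) (hδ : 0 < δ) :
    ∫⁻ t in Ioi δ, ENNReal.ofReal (r / t - r / (1 + t)) =
      ENNReal.ofReal (r * Real.log (1 + 1 / δ)) := by
  have h := lint_Ioi (F := fun t => -(r * Real.log (1 + 1 / t)))
    (f := fun t => r / t - r / (1 + t)) (a := δ) (b := 0) ?_ ?_ ?_
  · rw [h]
    congr 1
    ring
  · intro t ht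
    have ht0 : 0 < t := lt_of_lt_of_le hδ ht
    have h1 : HasDerivAt (fun t : ℝ => 1 + 1 / t) (-(t ^ 2)⁻¹) t := by
      simpa using (hasDerivAt_inv ht0.ne').const_add 1
    have h2 := (h1.log (by positivity)).const_mul r
    have h3 := h2.neg
    refine h3.congr_deriv ?_
    field_simp
    ring
  · intro t ht
    have ht0 : 0 < t := lt_trans hδ ht
    have : r / (1 + t) ≤ r / t := by gcongr; linarith
    linarith
  · have h1 : Tendsto (fun t : ℝ => 1 + 1 / t) atTop (𝓝 (1 + 0)) := by
      have h0 : (fun t : ℝ => 1 / t) = fun t => t⁻¹ := by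
        funext t
        rw [one_div]
      have h00 : Tendsto (fun t : ℝ => 1 / t) atTop (𝓝 0) := by
        rw [h0]
        exact tendsto_inv_atTop_zero
      exact h00.const_add 1
    rw [add_zero] at h1
    have h2 := (h1.log (by norm_num)).const_mul r
    have h3 := h2.neg
    simpa using h3

/-- the integral of `c/(1+t)^2` -/
theorem lint_sq {c t0 : ℝ} (hc : 0 ≤ c) (ht0 : 0 ≤ t0) :
    ∫⁻ t in Ioi t0, ENNReal.ofReal (c / (1 + t) ^ 2) = ENNReal.ofReal (c / (1 + t0)) := by
  have h := lint_Ioi (F := fun t => -(c / (1 + t)))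
    (f := fun t => c / (1 + t) ^ 2) (a := t0) (b := 0) ?_ ?_ ?_
  · rw [h]
    congr 1
    ring
  · intro t ht
    have ht1 : 0 < 1 + t := by
      have : t0 ≤ t := ht
      linarith
    have h1 : HasDerivAt (fun t : ℝ => 1 + t) 1 t := (hasDerivAt_id t).const_add 1
    have h2 := ((h1.inv ht1.ne').const_mul c).neg
    have h3 : (fun t : ℝ => -(c / (1 + t))) = fun t => -(c * (1 + t)⁻¹) := by
      funext t
      rw [div_eq_mul_inv]
    rw [h3]
    refine h2.congr_deriv ?_
    field_simp
  · intro t _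
    positivity
  · have h1 : Tendsto (fun t : ℝ => 1 + t) atTop atTop := tendsto_atTop_add_const_left _ _ tendsto_id
    have h2 := ((tendsto_inv_atTop_zero.comp h1).const_mul c).neg
    have h3 : (fun t : ℝ => -(c / (1 + t))) = fun t => -(c * (1 + t)⁻¹) := by
      funext t
      rw [div_eq_mul_inv]
    rw [h3]
    simpa [Function.comp_def] using h2

/-- the integrals of the negative and of the positive part -/
theorem int_gap (Phi : ℝ → ℝ≥0∞) (r : ℝ) (hr : r = 10 ^ 12)
    (h1 : ∀ t : ℝ, 0 < t → Phi t ≤ ENNReal.ofReal (r / t) + ENNReal.ofReal (r ^ 3 / (1 + t)))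
    (h2 : ∀ t : ℝ, 0 < t →
      Phi t ≤ ENNReal.ofReal (244 * r ^ 3) + ENNReal.ofReal (r ^ 3 / (1 + t)))
    (h3 : ∀ t : ℝ, 2500 * 10 ^ 18 ≤ t → Phi t ≤ ENNReal.ofReal (r / t) +
      ENNReal.ofReal (r ^ 3 / (1 + t) - r ^ 3 / (1 + t) ^ 2)) :
    ∫⁻ t in Ioi (0 : ℝ), (Phi t - ENNReal.ofReal ((r + r ^ 3) / (1 + t))) <
      ∫⁻ t in Ioi (0 : ℝ), (ENNReal.ofReal ((r + r ^ 3) / (1 + t)) - Phi t) := by
  have hr0 : 0 < r := by rw [hr]; positivity
  set δ : ℝ := 1 / (244 * r ^ 3) with hδ
  have hδ0 : 0 < δ := by positivity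
  -- negative part
  have hB : ∫⁻ t in Ioi (0 : ℝ), (Phi t - ENNReal.ofReal ((r + r ^ 3) / (1 + t))) ≤
      1 + ENNReal.ofReal (r * Real.log (1 + 1 / δ)) := by
    rw [← Ioc_union_Ioi_eq_Ioi hδ0.le]
    refine (lintegral_union_le _ _ _).trans (add_le_add ?_ ?_)
    · calc ∫⁻ t in Ioc 0 δ, (Phi t - ENNReal.ofReal ((r + r ^ 3) / (1 + t)))
          ≤ ∫⁻ _ in Ioc 0 δ, ENNReal.ofReal (244 * r ^ 3) := by
            apply setLIntegral_mono' measurableSet_Ioc
            intro t ht
            rw [tsub_le_iff_right]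
            refine (h2 t ht.1).trans ?_
            have ht1 : 0 < 1 + t := by linarith [ht.1]
            gcongr
            linarith
        _ = 1 := by
            rw [setLIntegral_const, Real.volume_Ioc, ← ENNReal.ofReal_mul (by positivity), hδ]
            rw [sub_zero, mul_one_div_cancel (by positivity), ENNReal.ofReal_one]
    · rw [← lint_log hr0.le hδ0]
      apply setLIntegral_mono' measurableSet_Ioi
      intro t ht
      have ht0 : 0 < t := lt_trans hδ0 ht
      rw [tsub_le_iff_right]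
      refine (h1 t ht0).trans ?_
      have h5 : r / (1 + t) ≤ r / t := by gcongr; linarith
      rw [← ENNReal.ofReal_add (by positivity) (by positivity),
        ← ENNReal.ofReal_add (by linarith) (by positivity)]
      apply ENNReal.ofReal_le_ofReal
      rw [add_div]
      linarith
  -- positive part
  set t0 : ℝ := 2500 * 10 ^ 18 with ht0
  have hA : ENNReal.ofReal ((r ^ 3 - 2 * r) / (1 + t0)) ≤
      ∫⁻ t in Ioi (0 : ℝ), (ENNReal.ofReal ((r + r ^ 3) / (1 + t)) - Phi t) := by
    have hc : 0 ≤ r ^ 3 - 2 * r := by rw [hr]; norm_num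
    rw [← lint_sq hc (by rw [ht0]; positivity)]
    calc ∫⁻ t in Ioi t0, ENNReal.ofReal ((r ^ 3 - 2 * r) / (1 + t) ^ 2)
        ≤ ∫⁻ t in Ioi t0, (ENNReal.ofReal ((r + r ^ 3) / (1 + t)) - Phi t) := by
          apply setLIntegral_mono' measurableSet_Ioi
          intro t ht
          have ht1 : t0 < t := ht
          have ht2 : 1 ≤ t := by
            have : (1 : ℝ) ≤ t0 := by rw [ht0]; norm_num
            linarith
          have e1 : 0 ≤ r ^ 3 / (1 + t) - r ^ 3 / (1 + t) ^ 2 := by
            have : r ^ 3 / (1 + t) ^ 2 ≤ r ^ 3 / (1 + t) := by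
              apply div_le_div_of_nonneg_left (by positivity) (by positivity)
              nlinarith
            linarith
          have e2 : Phi t ≤ ENNReal.ofReal (r / t + (r ^ 3 / (1 + t) - r ^ 3 / (1 + t) ^ 2)) := by
            rw [ENNReal.ofReal_add (by positivity) e1]
            exact h3 t ht1.le
          refine le_trans ?_ (tsub_le_tsub_left e2 _)
          rw [← ENNReal.ofReal_sub _ (by positivity)]
          apply ENNReal.ofReal_le_ofReal
          have e3 : r / t - r / (1 + t) ≤ 2 * r / (1 + t) ^ 2 := by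
            rw [div_sub_div _ _ (by positivity) (by positivity), div_le_div_iff₀ (by positivity)
              (by positivity)]
            have : 0 ≤ r * (1 + t) * (t - 1) := by
              apply mul_nonneg (by positivity)
              linarith
            nlinarith
          rw [add_div, sub_div]
          linarith
      _ ≤ ∫⁻ t in Ioi (0 : ℝ), (ENNReal.ofReal ((r + r ^ 3) / (1 + t)) - Phi t) := by
          apply lintegral_mono_set
          apply Ioi_subset_Ioi
          rw [ht0]
          positivity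
  refine lt_of_le_of_lt hB (lt_of_lt_of_le ?_ hA)
  have hlog : Real.log (1 + 1 / δ) ≤ 91 := by
    have h4 : 1 + 1 / δ ≤ 2 ^ 130 := by
      rw [hδ, one_div_one_div, hr]
      norm_num
    have h5 : Real.log (1 + 1 / δ) ≤ Real.log (2 ^ 130) :=
      Real.log_le_log (by positivity) h4
    rw [Real.log_pow] at h5
    have h6 := Real.log_two_lt_d9
    push_cast at h5
    linarith
  have h7 : (1 : ℝ≥0∞) + ENNReal.ofReal (r * Real.log (1 + 1 / δ)) ≤
      ENNReal.ofReal (1 + r * 91) := by
    rw [ENNReal.ofReal_add (by norm_num) (by positivity), ENNReal.ofReal_one]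
    gcongr
  refine lt_of_le_of_lt h7 ?_
  rw [ENNReal.ofReal_lt_ofReal_iff_of_nonneg (by positivity), hr, ht0]
  norm_num

end P087
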