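import Vale.Agent.Lib.P087.Stmt
import Vale.Agent.Lib.P087.P.IntGap

/-! P087: `χ*` from the two truncated integrals. -/

open scoped ENNReal Topology
open MeasureTheory Filter Set

namespace P087

theorem ereal_gap {A B : ℝ≥0∞} (h : B < A) (c : ℝ) :
    (c : EReal) < ((A / 2 : ℝ≥0∞) : EReal) - ((B / 2 : ℝ≥0∞) : EReal) + (c : EReal) := by
  have h2 : B / 2 < A / 2 := ENNReal.div_lt_div_right (by norm_num) (by norm_num) h
  have h3 : ((B / 2 : ℝ≥0∞) : EReal) < ((A / 2 : ℝ≥0∞) : EReal) := by exact_mod_cast h2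
  have h4 : (0 : EReal) < ((A / 2 : ℝ≥0∞) : EReal) - ((B / 2 : ℝ≥0∞) : EReal) :=
    EReal.sub_pos.mpr h3
  have h5 := EReal.add_lt_add_right_coe h4 c
  rwa [zero_add] at h5

variable {H : Type} [NormedAddCommGroup H] [InnerProductSpace ℂ H] [CompleteSpace H]

/-- `χ* > (n/2) log (2πe)` if the integral of the positive part is larger than the one of the
negative part -/
theorem chiStar_gt_of_lt {κ : Type} [DecidableEq κ] [Fintype κ] (T : TracialVN H)
    (X S : κ → H →L[ℂ] H)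
    (h : ∫⁻ t in Ioi (0 : ℝ), (PhiStar T (pert X S t) - ENNReal.ofReal (Fintype.card κ / (1 + t))) <
      ∫⁻ t in Ioi (0 : ℝ), (ENNReal.ofReal (Fintype.card κ / (1 + t)) - PhiStar T (pert X S t))) :
    ((Fintype.card κ / 2 * Real.log (2 * Real.pi * Real.exp 1) : ℝ) : EReal) < chiStar T X S := by
  unfold chiStar
  exact ereal_gap h _

/-- the same from the three bounds of the free Fisher information, `n = r + r^3`, `r = 10^12` -/
theorem chiStar_gt_of_bounds {κ : Type} [DecidableEq κ] [Fintype κ] (T : TracialVN H)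
    (X S : κ → H →L[ℂ] H) (r : ℕ) (hr : r = 10 ^ 12) (hn : Fintype.card κ = r + r ^ 3)
    (h1 : ∀ t : ℝ, 0 < t → PhiStar T (pert X S t) ≤
      ENNReal.ofReal ((r : ℝ) / t) + ENNReal.ofReal ((r : ℝ) ^ 3 / (1 + t)))
    (h2 : ∀ t : ℝ, 0 < t → PhiStar T (pert X S t) ≤
      ENNReal.ofReal (244 * (r : ℝ) ^ 3) + ENNReal.ofReal ((r : ℝ) ^ 3 / (1 + t)))
    (h3 : ∀ t : ℝ, 2500 * 10 ^ 18 ≤ t → PhiStar T (pert X S t) ≤ ENNReal.ofReal ((r : ℝ) / t) +
      ENNReal.ofReal ((r : ℝ) ^ 3 / (1 + t) - (r : ℝ) ^ 3 / (1 + t) ^ 2)) :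
    ((Fintype.card κ / 2 * Real.log (2 * Real.pi * Real.exp 1) : ℝ) : EReal) < chiStar T X S := by
  have h := int_gap (fun t => PhiStar T (pert X S t)) (r : ℝ) (by rw [hr]; norm_num) h1 h2 h3
  apply chiStar_gt_of_lt
  have hn' : (Fintype.card κ : ℝ) = r + (r : ℝ) ^ 3 := by rw [hn]; push_cast; ring
  rw [hn']
  exact h

end P087
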