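import Vale.Agent.Lib.P087.P.Op
import Vale.Agent.Lib.P087.P.ChiStar
import Vale.Agent.Lib.P087.Conj

/-! P087 P/Bounds: bounds of the free Fisher information from vectors satisfying the conjugate
relations; the final lower bound of `χ*` from the vectors (i)-(iv) of section 2. -/

open scoped ENNReal

namespace P087

variable {H : Type} [NormedAddCommGroup H] [InnerProductSpace ℂ H] [CompleteSpace H]
variable {T : TracialVN H}

section fisher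

variable {κ : Type} [DecidableEq κ]

/-- conjugate vectors exist as soon as some vector satisfies the relations -/
theorem exists_isConj (X : κ → H →L[ℂ] H) (j : κ) (ξ : H)
    (hξ : ∀ w, inner ℂ ξ (wordOp X w T.Ω) = dq T X j w) :
    ∃ η, IsConj T X j η ∧ ‖η‖ ≤ ‖ξ‖ := by
  obtain ⟨η, h1, h2, h3⟩ := Conj.exists_proj (fun w : List κ => wordOp X w T.Ω) (dq T X j) ξ hξ
  exact ⟨η, ⟨h1, h2⟩, h3⟩

theorem PhiStar_le [Fintype κ] (X : κ → H →L[ℂ] H) (η : κ → H) (hη : ∀ j, IsConj T X j (η j)) :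
    PhiStar T X ≤ ∑ j, ENNReal.ofReal (‖η j‖ ^ 2) :=
  iInf₂_le η hη

/-- two blocks: the first block is bounded by `A`, the other block by `B`; in both blocks it is
enough to have, for every `d`, vectors with the conjugate relations for words of length at most `d` -/
theorem PhiStar_le_blocks {ι ι' : Type} [Fintype ι] [Fintype ι'] [DecidableEq ι] [DecidableEq ι']
    (X : ι ⊕ ι' → H →L[ℂ] H)
    (hξ : ∀ j, ∃ ξ : H, ∀ w, inner ℂ ξ (wordOp X w T.Ω) = dq T X j w) (A B : ℝ)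
    (hA : ∀ d : ℕ, ∃ ζ : ι → H, (∀ (a : ι) (w : List (ι ⊕ ι')), w.length ≤ d →
      inner ℂ (ζ a) (wordOp X w T.Ω) = dq T X (Sum.inl a) w) ∧ ∑ a, ‖ζ a‖ ^ 2 ≤ A)
    (hB : ∀ d : ℕ, ∃ ζ : ι' → H, (∀ (a : ι') (w : List (ι ⊕ ι')), w.length ≤ d →
      inner ℂ (ζ a) (wordOp X w T.Ω) = dq T X (Sum.inr a) w) ∧ ∑ a, ‖ζ a‖ ^ 2 ≤ B) :
    PhiStar T X ≤ ENNReal.ofReal A + ENNReal.ofReal B := by
  have hex : ∀ j, ∃ η, IsConj T X j η := fun j => by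
    obtain ⟨ξ, hξj⟩ := hξ j
    obtain ⟨η, h1, _⟩ := exists_isConj X j ξ hξj
    exact ⟨η, h1⟩
  choose η hη using hex
  refine (PhiStar_le X η hη).trans ?_
  rw [Fintype.sum_sum_type]
  have h1 : ∑ a : ι, ‖η (Sum.inl a)‖ ^ 2 ≤ A :=
    Conj.sum_norm_sq_le (fun w : List (ι ⊕ ι') => wordOp X w T.Ω) Finset.univ
      (fun a => dq T X (Sum.inl a)) (fun a => η (Sum.inl a)) (fun a _ => (hη _).1)
      (fun a _ => (hη _).2) A (fun d => by
        obtain ⟨ζ, h1, h2⟩ := hA d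
        exact ⟨ζ, fun a _ w hw => h1 a w hw, h2⟩)
  have h2 : ∑ a : ι', ‖η (Sum.inr a)‖ ^ 2 ≤ B :=
    Conj.sum_norm_sq_le (fun w : List (ι ⊕ ι') => wordOp X w T.Ω) Finset.univ
      (fun a => dq T X (Sum.inr a)) (fun a => η (Sum.inr a)) (fun a _ => (hη _).1)
      (fun a _ => (hη _).2) B (fun d => by
        obtain ⟨ζ, h1, h2⟩ := hB d
        exact ⟨ζ, fun a _ w hw => h1 a w hw, h2⟩)
  rw [← ENNReal.ofReal_sum_of_nonneg (fun _ _ => by positivity),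
    ← ENNReal.ofReal_sum_of_nonneg (fun _ _ => by positivity)]
  exact add_le_add (ENNReal.ofReal_le_ofReal h1) (ENNReal.ofReal_le_ofReal h2)

end fisher

section final

variable {r : ℕ}

/-- `ξ` satisfies the conjugate relations of the variable `i` for words of length at most `d` -/
def Rel (F : FockSys T (Let r)) (q : ℝ) (i : K r) (ξ : H) : Prop :=
  ∀ w : List (K r), inner ℂ ξ (wordOp (Xop F q) w T.Ω) = dq T (Xop F q) i w

/-- assembly of section 2 and section 4: (i), (ii), (iii), (iv) give the lower bound of `χ*` -/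
theorem chiStar_Xop_gt (F : FockSys T (Let r)) (hr : r = 10 ^ 12)
    (hi : ∀ q : ℝ, 0 < q → ∀ i : K r, ∃ ξ, Rel F q i ξ ∧ ‖ξ‖ ^ 2 ≤ 1 / q ^ 2)
    (hii : ∀ q : ℝ, 0 < q → ∀ j : J r, ∃ ξ, Rel F q (Sum.inr j) ξ ∧ ‖ξ‖ ^ 2 ≤ 1 / (1 + q ^ 2))
    (hiii : ∀ q : ℝ, 0 < q → ∀ a : Fin r, ∃ ξ, Rel F q (Sum.inl a) ξ ∧
      ‖ξ‖ ^ 2 ≤ 244 * (r : ℝ) ^ 2)
    (hiv : ∀ q : ℝ, 0 < q → 2500 * (r : ℝ) ^ ((3 : ℝ) / 2) ≤ q ^ 2 → ∀ d : ℕ,
      ∃ ζ : J r → H, (∀ j (w : List (K r)), w.length ≤ d →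
        inner ℂ (ζ j) (wordOp (Xop F q) w T.Ω) = dq T (Xop F q) (Sum.inr j) w) ∧
        ∑ j, ‖ζ j‖ ^ 2 ≤ (r : ℝ) ^ 3 / (1 + q ^ 2) - (r : ℝ) ^ 3 / (1 + q ^ 2) ^ 2) :
    ((Fintype.card (K r) / 2 * Real.log (2 * Real.pi * Real.exp 1) : ℝ) : EReal) <
      chiStar T (Xop F 0) (fun i => F.y (out i)) := by
  have hR : (r : ℝ) = 10 ^ 12 := by rw [hr]; norm_num
  have hcard : Fintype.card (K r) = r + r ^ 3 := by
    simp only [K, J, Fintype.card_sum, Fintype.card_prod, Fintype.card_fin]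
    ring
  have hJ : ((Finset.univ : Finset (J r)).card : ℝ) = (r : ℝ) ^ 3 := by
    rw [Finset.card_univ]
    simp only [J, Fintype.card_prod, Fintype.card_fin]
    push_cast
    ring
  -- blocks from vectors valid for all words
  have hex : ∀ q : ℝ, 0 < q → ∀ j : K r, ∃ ξ : H, ∀ w,
      inner ℂ ξ (wordOp (Xop F q) w T.Ω) = dq T (Xop F q) j w := fun q hq j => by
    obtain ⟨ξ, h, _⟩ := hi q hq j
    exact ⟨ξ, h⟩
  have hl1 : ∀ q : ℝ, 0 < q → ∀ d : ℕ, ∃ ζ : Fin r → H, (∀ (a : Fin r) (w : List (K r)),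
      w.length ≤ d → inner ℂ (ζ a) (wordOp (Xop F q) w T.Ω) = dq T (Xop F q) (Sum.inl a) w) ∧
      ∑ a, ‖ζ a‖ ^ 2 ≤ (r : ℝ) / q ^ 2 := fun q hq d => by
    have h := fun a : Fin r => hi q hq (Sum.inl a)
    choose ζ h1 h2 using h
    refine ⟨ζ, fun a w _ => h1 a w, ?_⟩
    calc ∑ a, ‖ζ a‖ ^ 2 ≤ ∑ _a : Fin r, 1 / q ^ 2 := Finset.sum_le_sum fun a _ => h2 a
      _ = (r : ℝ) / q ^ 2 := by
          rw [Finset.sum_const, Finset.card_univ, Fintype.card_fin, nsmul_eq_mul]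
          ring
  have hl2 : ∀ q : ℝ, 0 < q → ∀ d : ℕ, ∃ ζ : Fin r → H, (∀ (a : Fin r) (w : List (K r)),
      w.length ≤ d → inner ℂ (ζ a) (wordOp (Xop F q) w T.Ω) = dq T (Xop F q) (Sum.inl a) w) ∧
      ∑ a, ‖ζ a‖ ^ 2 ≤ 244 * (r : ℝ) ^ 3 := fun q hq d => by
    have h := fun a : Fin r => hiii q hq a
    choose ζ h1 h2 using h
    refine ⟨ζ, fun a w _ => h1 a w, ?_⟩
    calc ∑ a, ‖ζ a‖ ^ 2 ≤ ∑ _a : Fin r, 244 * (r : ℝ) ^ 2 := Finset.sum_le_sum fun a _ => h2 a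
      _ = 244 * (r : ℝ) ^ 3 := by
          rw [Finset.sum_const, Finset.card_univ, Fintype.card_fin, nsmul_eq_mul]
          ring
  have hr1 : ∀ q : ℝ, 0 < q → ∀ d : ℕ, ∃ ζ : J r → H, (∀ (a : J r) (w : List (K r)),
      w.length ≤ d → inner ℂ (ζ a) (wordOp (Xop F q) w T.Ω) = dq T (Xop F q) (Sum.inr a) w) ∧
      ∑ a, ‖ζ a‖ ^ 2 ≤ (r : ℝ) ^ 3 / (1 + q ^ 2) := fun q hq d => by
    have h := fun a : J r => hii q hq a
    choose ζ h1 h2 using h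
    refine ⟨ζ, fun a w _ => h1 a w, ?_⟩
    calc ∑ a, ‖ζ a‖ ^ 2 ≤ ∑ _a : J r, 1 / (1 + q ^ 2) := Finset.sum_le_sum fun a _ => h2 a
      _ = (r : ℝ) ^ 3 / (1 + q ^ 2) := by
          rw [Finset.sum_const, nsmul_eq_mul, hJ]
          ring
  refine chiStar_gt_of_bounds T _ _ r hr hcard (fun t ht => ?_) (fun t ht => ?_) (fun t ht => ?_)
  · rw [pert_X]
    have hq : 0 < Real.sqrt t := Real.sqrt_pos.mpr ht
    have h := PhiStar_le_blocks (T := T) (Xop F (Real.sqrt t)) (hex _ hq) _ _ (hl1 _ hq) (hr1 _ hq)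
    rwa [Real.sq_sqrt ht.le] at h
  · rw [pert_X]
    have hq : 0 < Real.sqrt t := Real.sqrt_pos.mpr ht
    have h := PhiStar_le_blocks (T := T) (Xop F (Real.sqrt t)) (hex _ hq) _ _ (hl2 _ hq) (hr1 _ hq)
    rwa [Real.sq_sqrt ht.le] at h
  · rw [pert_X]
    have ht0 : 0 < t := lt_of_lt_of_le (by norm_num) ht
    have hq : 0 < Real.sqrt t := Real.sqrt_pos.mpr ht0
    have hpow : (r : ℝ) ^ ((3 : ℝ) / 2) = 10 ^ 18 := by
      rw [hR, show ((10 : ℝ) ^ 12) = ((10 : ℝ) ^ 6) ^ (2 : ℝ) by norm_num,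
        ← Real.rpow_mul (by norm_num)]
      norm_num
    have h := PhiStar_le_blocks (T := T) (Xop F (Real.sqrt t)) (hex _ hq) _ _ (hl1 _ hq)
      (hiv _ hq (by rw [Real.sq_sqrt ht0.le, hpow]; exact ht))
    rwa [Real.sq_sqrt ht0.le] at h

end final

end P087
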