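import Vale.Agent.Lib.P087.P.Op
import Vale.Agent.Lib.P087.W.Rep

/-! P087 part P: inner products of words. -/

open scoped ENNReal

namespace P087

variable {H : Type} [NormedAddCommGroup H] [InnerProductSpace ℂ H] [CompleteSpace H]
variable {T : TracialVN H}

/-- self-adjoint letters: the adjoint of a word is the reversed word -/
theorem inner_wordOp_left {κ : Type} (X : κ → H →L[ℂ] H) (hX : ∀ i, IsSelfAdjoint (X i))
    (u : List κ) (v w : H) :
    inner ℂ (wordOp X u v) w = inner ℂ v (wordOp X u.reverse w) := by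
  induction u generalizing v w with
  | nil => rfl
  | cons i u ih =>
    have h2 := ContinuousLinearMap.adjoint_inner_left (X i) w (wordOp X u v)
    rw [← ContinuousLinearMap.star_eq_adjoint, (hX i).star_eq] at h2
    rw [wordOp_cons, List.reverse_cons, wordOp_append, wordOp_cons, wordOp_nil, mul_one,
      mul_apply_eq_comp, mul_apply_eq_comp, h2, ih]

theorem inner_word_word {I : Type} [DecidableEq I] (F : FockSys T I) (P Q : List I) :
    inner ℂ (wordOp F.y P T.Ω) (wordOp F.y Q T.Ω) = ((mom (P.reverse ++ Q) : ℝ) : ℂ) := by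
  have h := inner_e_word F (P.reverse ++ Q) []
  rw [F.e_nil, wordOp_append, mul_apply_eq_comp] at h
  rw [inner_wordOp_left F.y F.y_sa, h]
  rfl

theorem inner_word_X {r : ℕ} (F : FockSys T (Let r)) (q : ℝ) (P : List (Let r)) (w : List (K r)) :
    inner ℂ (wordOp F.y P T.Ω) (wordOp (Xop F q) w T.Ω)
      = ((ext q (fun Q => mom (P.reverse ++ Q)) w : ℝ) : ℂ) := by
  rw [inner_word_Xop, ← ext_ofReal]
  simp only [inner_word_word]

end P087
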