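import Vale.Agent.Lib.P087.P.Op
import Vale.Agent.Lib.P087.W.Rep
import Vale.Agent.Lib.P087.W.Bound

/-! P087 P/X4: the vectors `(X_j(t) Ω - Ψ_j) / (1 + t)`. -/

namespace P087

variable {H : Type} [NormedAddCommGroup H] [InnerProductSpace ℂ H] [CompleteSpace H]
variable {T : TracialVN H}

theorem X4_cf_not_mem {I : Type} [DecidableEq I] (Q u : List I) (x : I) (hu : x ∈ u)
    (hQ : x ∉ Q) : cf Q u = 0 := by
  induction Q generalizing u with
  | nil =>
    cases u with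
    | nil => cases hu
    | cons j w => simp [cf]
  | cons i Q ih =>
    rw [List.mem_cons, not_or] at hQ
    cases u with
    | nil => cases hu
    | cons j w =>
      have hcf : cf (i :: Q) (j :: w) = (if i = j then cf Q w else 0) + cf Q (i :: j :: w) := by
        rw [cf]
      rw [hcf, ih (i :: j :: w) (List.mem_cons_of_mem _ hu) hQ.2, add_zero]
      split_ifs with h
      · refine ih w ?_ hQ.2
        rcases List.mem_cons.1 hu with h1 | h1
        · exact absurd (h1.trans h.symm) hQ.1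
        · exact h1
      · rfl

theorem X4_inner_word {I : Type} [DecidableEq I] (F : FockSys T I) (P Q : List I) :
    inner ℂ (wordOp F.y P T.Ω) (wordOp F.y Q T.Ω) = ((mom (P.reverse ++ Q) : ℝ) : ℂ) := by
  induction P generalizing Q with
  | nil =>
    have h := inner_e_word F Q []
    rw [F.e_nil] at h
    exact h
  | cons i P ih =>
    have h1 : inner ℂ (wordOp F.y (i :: P) T.Ω) (wordOp F.y Q T.Ω) =
        inner ℂ (wordOp F.y P T.Ω) (wordOp F.y (i :: Q) T.Ω) := by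
      rw [wordOp_cons, wordOp_cons]
      exact (inner_y F i _ _).symm
    rw [h1, ih, List.reverse_cons, List.append_assoc]
    rfl

variable {r : ℕ}

theorem X4_inner_word_X (F : FockSys T (Let r)) (q : ℝ) (P : List (Let r)) (w : List (K r)) :
    inner ℂ (wordOp F.y P T.Ω) (wordOp (Xop F q) w T.Ω) =
      ((ext q (fun Q => mom (P.reverse ++ Q)) w : ℝ) : ℂ) := by
  rw [inner_word_Xop, ← ext_ofReal]
  simp only [X4_inner_word]

/-- `Z_j Ω` -/
noncomputable def Zv (F : FockSys T (Let r)) (j : J r) : H :=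
  wordOp F.y [hid j.1, hid j.2.1, hid j.2.2] T.Ω + wordOp F.y [hid j.2.2, hid j.2.1, hid j.1] T.Ω

/-- coefficients of `Ψ_j` -/
noncomputable def PJ (q : ℝ) (d : ℕ) (j : J r) (u : List (K r)) : ℝ :=
  Psi q d [j.1, j.2.1, j.2.2] u + Psi q d [j.2.2, j.2.1, j.1] u

/-- `Ψ_j` -/
noncomputable def Psv (F : FockSys T (Let r)) (q : ℝ) (d M : ℕ) (j : J r) : H :=
  ∑ m ∈ Finset.range M, ∑ u : Fin m → K r,
    ((PJ q d j (List.ofFn u) : ℝ) : ℂ) • F.e ((List.ofFn u).map out)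

theorem X4_Psv_inner (F : FockSys T (Let r)) (q : ℝ) (d M : ℕ) (j : J r) (a : H) :
    inner ℂ (Psv F q d M j) a = ∑ m ∈ Finset.range M, ∑ u : Fin m → K r,
      ((PJ q d j (List.ofFn u) : ℝ) : ℂ) * inner ℂ (F.e ((List.ofFn u).map out)) a := by
  unfold Psv
  rw [sum_inner]
  refine Finset.sum_congr rfl fun m _ => ?_
  rw [sum_inner]
  refine Finset.sum_congr rfl fun u _ => ?_
  rw [inner_smul_left, Complex.conj_ofReal]

theorem X4_Psv_X (F : FockSys T (Let r)) (q : ℝ) (d M : ℕ) (j : J r) (w : List (K r)) :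
    inner ℂ (Psv F q d M j) (wordOp (Xop F q) w T.Ω) =
      ((∑ m ∈ Finset.range M, ∑ u : Fin m → K r,
        PJ q d j (List.ofFn u) * cX q (List.ofFn u) w : ℝ) : ℂ) := by
  rw [X4_Psv_inner]
  push_cast
  refine Finset.sum_congr rfl fun m _ => Finset.sum_congr rfl fun u _ => ?_
  rw [inner_e_X]
  rfl

theorem X4_Psv_eq (F : FockSys T (Let r)) (q : ℝ) (hq : q ≠ 0) (d M : ℕ) (j : J r)
    (w : List (K r)) (hw : w.length ≤ d) (hM : w.length < M) :
    inner ℂ (Psv F q d M j) (wordOp (Xop F q) w T.Ω) =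
      inner ℂ (Zv F j) (wordOp (Xop F q) w T.Ω) := by
  rw [X4_Psv_X]
  unfold Zv
  rw [inner_add_left, X4_inner_word_X, X4_inner_word_X]
  have h1 := Psi_rep q hq d [j.1, j.2.1, j.2.2] w hw M hM
  have h2 := Psi_rep q hq d [j.2.2, j.2.1, j.1] w hw M hM
  have h3 : ∑ m ∈ Finset.range M, ∑ u : Fin m → K r,
      PJ q d j (List.ofFn u) * cX q (List.ofFn u) w =
      ext q (fun Q => mom (([j.2.2, j.2.1, j.1] : List (Fin r)).map hid ++ Q)) w +
      ext q (fun Q => mom (([j.1, j.2.1, j.2.2] : List (Fin r)).map hid ++ Q)) w := by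
    rw [h1, h2, ← Finset.sum_add_distrib]
    refine Finset.sum_congr rfl fun m _ => ?_
    rw [← Finset.sum_add_distrib]
    refine Finset.sum_congr rfl fun u _ => ?_
    unfold PJ
    ring
  rw [h3]
  push_cast
  rfl

theorem X4_e_Zv (F : FockSys T (Let r)) (j : J r) (u : List (Let r))
    (hu : ∀ x ∈ u, ∀ a, x ≠ hid a) : inner ℂ (F.e u) (Zv F j) = 0 := by
  unfold Zv
  rw [inner_add_right, inner_e_word, inner_e_word]
  rcases u with _ | ⟨x, u⟩
  · have h1 : ∀ a b c : Let r, cf [a, b, c] [] = 0 := by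
      intro a b c
      simp [cf]
    rw [h1, h1]
    simp
  · have hx := hu x (List.mem_cons_self)
    rw [X4_cf_not_mem _ _ x List.mem_cons_self, X4_cf_not_mem _ _ x List.mem_cons_self]
    · simp
    · simp [hx]
    · simp [hx]

theorem X4_Psv_Zv (F : FockSys T (Let r)) (q : ℝ) (d M : ℕ) (j : J r) :
    inner ℂ (Psv F q d M j) (Zv F j) = 0 := by
  rw [X4_Psv_inner]
  refine Finset.sum_eq_zero fun m _ => Finset.sum_eq_zero fun u _ => ?_
  rw [X4_e_Zv, mul_zero]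
  intro x hx a h
  obtain ⟨y, -, rfl⟩ := List.mem_map.1 hx
  cases h

theorem X4_e_e {I : Type} [DecidableEq I] (F : FockSys T I) {u v : List I} (h : u ≠ v) :
    inner ℂ (F.e u) (F.e v) = 0 := F.e_on.2 h

theorem X4_Psv_inn (F : FockSys T (Let r)) (q : ℝ) (d M : ℕ) (j j' : J r) :
    inner ℂ (Psv F q d M j) (F.e [inn j']) = 0 := by
  rw [X4_Psv_inner]
  refine Finset.sum_eq_zero fun m _ => Finset.sum_eq_zero fun u _ => ?_
  rw [X4_e_e, mul_zero]
  intro h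
  have h1 : inn j' ∈ (List.ofFn u).map (out (r := r)) := by
    rw [h]
    exact List.mem_cons_self
  obtain ⟨y, -, h2⟩ := List.mem_map.1 h1
  cases h2

theorem X4_e_Psv (F : FockSys T (Let r)) (q : ℝ) (d M : ℕ) (j : J r) {m : ℕ} (hm : m < M)
    (u : Fin m → K r) :
    inner ℂ (F.e ((List.ofFn u).map out)) (Psv F q d M j) = ((PJ q d j (List.ofFn u) : ℝ) : ℂ) := by
  unfold Psv
  rw [inner_sum, Finset.sum_eq_single m]
  · rw [inner_sum, Finset.sum_eq_single u]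
    · rw [inner_smul_right, orthonormal_iff_ite.1 F.e_on, if_pos rfl, mul_one]
    · intro v _ hv
      rw [inner_smul_right, X4_e_e, mul_zero]
      intro h
      have h1 := List.map_injective_iff.2 (Sum.inr_injective (α := K r) (β := K r)) h
      exact hv (List.ofFn_injective h1).symm
    · intro h
      exact absurd (Finset.mem_univ u) h
  · intro m' _ hm'
    rw [inner_sum]
    refine Finset.sum_eq_zero fun v _ => ?_
    rw [inner_smul_right, X4_e_e, mul_zero]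
    intro h
    have h1 := congrArg List.length h
    rw [List.length_map, List.length_map, List.length_ofFn, List.length_ofFn] at h1
    exact hm' h1.symm
  · intro h
    exact absurd (Finset.mem_range.2 hm) h

theorem X4_norm_Psv (F : FockSys T (Let r)) (q : ℝ) (d M : ℕ) (j : J r) :
    ‖Psv F q d M j‖ ^ 2 =
      ∑ m ∈ Finset.range M, ∑ u : Fin m → K r, PJ q d j (List.ofFn u) ^ 2 := by
  have h := inner_self_eq_norm_sq_to_K (𝕜 := ℂ) (Psv F q d M j)
  have h2 : ((‖Psv F q d M j‖ ^ 2 : ℝ) : ℂ) =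
      ((∑ m ∈ Finset.range M, ∑ u : Fin m → K r, PJ q d j (List.ofFn u) ^ 2 : ℝ) : ℂ) := by
    push_cast
    refine Eq.trans h.symm ?_
    rw [X4_Psv_inner]
    refine Finset.sum_congr rfl fun m hm => Finset.sum_congr rfl fun u _ => ?_
    rw [X4_e_Psv F q d M j (Finset.mem_range.1 hm), sq]
  exact_mod_cast h2

theorem X4_norm_Zv (F : FockSys T (Let r)) (j : J r) : 2 ≤ ‖Zv F j‖ ^ 2 := by
  have hb : ∀ a b c : Let r, 1 ≤ ‖wordOp F.y [a, b, c] T.Ω‖ ^ 2 := by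
    intro a b c
    have h1 : inner ℂ (F.e [a, b, c]) (wordOp F.y [a, b, c] T.Ω) = (1 : ℂ) := by
      rw [inner_e_word]
      simp [cf]
    have h2 := norm_inner_le_norm (𝕜 := ℂ) (F.e [a, b, c]) (wordOp F.y [a, b, c] T.Ω)
    rw [h1, F.e_on.1, norm_one, one_mul] at h2
    exact one_le_pow₀ h2
  unfold Zv
  rw [norm_add_sq (𝕜 := ℂ), X4_inner_word]
  have h1 := hb (hid j.1) (hid j.2.1) (hid j.2.2)
  have h2 := hb (hid j.2.2) (hid j.2.1) (hid j.1)
  have h3 : 0 ≤ mom ([hid j.1, hid j.2.1, hid j.2.2].reverse ++ [hid j.2.2, hid j.2.1, hid j.1] :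
      List (Let r)) := cf_nonneg _ _
  have h4 : RCLike.re (((mom ([hid j.1, hid j.2.1, hid j.2.2].reverse ++
      [hid j.2.2, hid j.2.1, hid j.1] : List (Let r)) : ℝ) : ℂ)) =
      mom ([hid j.1, hid j.2.1, hid j.2.2].reverse ++ [hid j.2.2, hid j.2.1, hid j.1] :
      List (Let r)) := Complex.ofReal_re _
  rw [h4]
  linarith

theorem X4_cf_one {I : Type} [DecidableEq I] (Q : List I) (x : I) :
    cf Q [x] = ssum x (fun Q₁ Q₂ => mom Q₁ * mom Q₂) Q := cf_split Q [] [] x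

theorem X4_inn (F : FockSys T (Let r)) (q : ℝ) (j : J r) (w : List (K r)) :
    inner ℂ (F.e [inn j]) (wordOp (Xop F q) w T.Ω) = dq T (Xop F q) (Sum.inr j) w := by
  rw [inner_e_X, dq_X, ← ext_ssum_inn]
  simp only [X4_cf_one]

theorem X4_out (F : FockSys T (Let r)) (q : ℝ) (i : K r) (w : List (K r)) :
    inner ℂ (F.e [out i]) (wordOp (Xop F q) w T.Ω) = (q : ℂ) * dq T (Xop F q) i w := by
  rw [inner_e_X, dq_X, ← Complex.ofReal_mul, ← ext_ssum_out]
  simp only [X4_cf_one]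

/-- `X_j(t) Ω` -/
theorem X4_X (F : FockSys T (Let r)) (q : ℝ) (j : J r) :
    wordOp (Xop F q) [Sum.inr j] T.Ω = Zv F j + F.e [inn j] + (q : ℂ) • F.e [out (Sum.inr j)] := by
  obtain ⟨a, b, c⟩ := j
  have h1 : wordOp F.y [inn (a, b, c)] T.Ω = F.e [inn (a, b, c)] := by
    rw [wordOp_cons, wordOp_nil, mul_one, ← F.e_nil, F.act_nil]
  have h2 : wordOp F.y [out (Sum.inr (a, b, c))] T.Ω = F.e [out (Sum.inr (a, b, c))] := by
    rw [wordOp_cons, wordOp_nil, mul_one, ← F.e_nil, F.act_nil]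
  rw [wordOp_cons, wordOp_nil, mul_one]
  unfold Xop Zv
  simp only [mons, List.map_cons, List.map_nil, List.sum_cons, List.sum_nil, Complex.ofReal_one,
    one_smul, add_zero]
  rw [add_apply, add_apply, add_apply, h1]
  have h3 : ((q : ℂ) • wordOp F.y [out (Sum.inr (a, b, c))]) T.Ω =
      (q : ℂ) • F.e [out (Sum.inr (a, b, c))] := by
    rw [← h2]
    rfl
  rw [h3]
  abel

/-- `ξ_j = (X_j(t) Ω - Ψ_j) / (1 + t)` -/
noncomputable def Xiv (F : FockSys T (Let r)) (q : ℝ) (d M : ℕ) (j : J r) : H :=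
  (((1 + q ^ 2)⁻¹ : ℝ) : ℂ) • (wordOp (Xop F q) [Sum.inr j] T.Ω - Psv F q d M j)

theorem X4_Xiv_inner (F : FockSys T (Let r)) (q : ℝ) (hq : q ≠ 0) (d M : ℕ) (j : J r)
    (w : List (K r)) (hw : w.length ≤ d) (hM : w.length < M) :
    inner ℂ (Xiv F q d M j) (wordOp (Xop F q) w T.Ω) = dq T (Xop F q) (Sum.inr j) w := by
  unfold Xiv
  rw [inner_smul_left, Complex.conj_ofReal, X4_X, inner_sub_left, inner_add_left, inner_add_left,
    X4_Psv_eq F q hq d M j w hw hM, X4_inn, inner_smul_left, Complex.conj_ofReal, X4_out]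
  have h1 : (1 + (q : ℂ) ^ 2) ≠ 0 := by
    have h2 : (1 + q ^ 2 : ℝ) ≠ 0 := by positivity
    exact_mod_cast h2
  push_cast
  field_simp
  ring

theorem X4_Xiv_norm (F : FockSys T (Let r)) (q : ℝ) (hq : q ≠ 0) (d M : ℕ) (hd : 1 ≤ d)
    (hM : 1 < M) (j : J r) :
    ‖Xiv F q d M j‖ ^ 2 = (1 + q ^ 2 - ‖Zv F j‖ ^ 2 + ‖Psv F q d M j‖ ^ 2) / (1 + q ^ 2) ^ 2 := by
  set Z := Zv F j with hZ
  set P := Psv F q d M j with hP
  set s := F.e [inn j] with hs
  set o := F.e [out (Sum.inr j)] with ho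
  have hso : inner ℂ s o = 0 := X4_e_e F (by simp)
  have hsZ : inner ℂ s Z = 0 := X4_e_Zv F j _ (by simp)
  have hoZ : inner ℂ o Z = 0 := X4_e_Zv F j _ (by simp)
  have hPZ : inner ℂ P Z = 0 := X4_Psv_Zv F q d M j
  have hPs : inner ℂ P s = 0 := X4_Psv_inn F q d M j j
  have hns : ‖s‖ = 1 := F.e_on.1 _
  have hno : ‖o‖ = 1 := F.e_on.1 _
  have hZs : inner ℂ Z s = 0 := by rw [← inner_conj_symm, hsZ, map_zero]
  have hZo : inner ℂ Z o = 0 := by rw [← inner_conj_symm, hoZ, map_zero]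
  have hZP : inner ℂ Z P = 0 := by rw [← inner_conj_symm, hPZ, map_zero]
  have hsP : inner ℂ s P = 0 := by rw [← inner_conj_symm, hPs, map_zero]
  -- `⟨Ψ, q o⟩ = ‖Z‖²`
  have hkey : inner ℂ P ((q : ℂ) • o) = ((‖Z‖ ^ 2 : ℝ) : ℂ) := by
    have h1 := X4_Psv_eq F q hq d M j [Sum.inr j] (by simpa using hd) (by simpa using hM)
    rw [X4_X, ← hZ, ← hP, ← hs, ← ho, inner_add_right, inner_add_right, inner_add_right,
      inner_add_right, hPZ, hPs, hZs, inner_smul_right ( 𝕜 := ℂ) Z o, hZo, mul_zero, zero_add,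
      zero_add, add_zero, add_zero, inner_self_eq_norm_sq_to_K] at h1
    rw [h1]
    push_cast
    rfl
  have hnq : ‖(q : ℂ) • o‖ ^ 2 = q ^ 2 := by
    rw [norm_smul, hno, mul_one, Complex.norm_real, Real.norm_eq_abs, sq_abs]
  have e1 : ‖(q : ℂ) • o - P‖ ^ 2 = q ^ 2 - 2 * ‖Z‖ ^ 2 + ‖P‖ ^ 2 := by
    rw [norm_sub_sq (𝕜 := ℂ), hnq]
    have h2 : RCLike.re (inner ℂ ((q : ℂ) • o) P) = ‖Z‖ ^ 2 := by
      rw [← inner_conj_symm, hkey, Complex.conj_ofReal]
      exact Complex.ofReal_re _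
    rw [h2]
  have e2 : ‖wordOp (Xop F q) [Sum.inr j] T.Ω - P‖ ^ 2 =
      ‖Z‖ ^ 2 + (1 + ‖(q : ℂ) • o - P‖ ^ 2) := by
    rw [X4_X, ← hZ, ← hs, ← ho]
    have h3 : Z + s + (q : ℂ) • o - P = Z + (s + ((q : ℂ) • o - P)) := by abel
    rw [h3, norm_add_sq (𝕜 := ℂ) Z, norm_add_sq (𝕜 := ℂ) s]
    have h4 : inner ℂ s ((q : ℂ) • o - P) = 0 := by
      rw [inner_sub_right, inner_smul_right, hso, hsP, mul_zero, sub_zero]
    have h5 : inner ℂ Z (s + ((q : ℂ) • o - P)) = 0 := by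
      rw [inner_add_right, inner_sub_right, inner_smul_right, hZs, hZo, hZP, mul_zero, sub_zero,
        add_zero]
    rw [h4, h5, hns]
    simp
  unfold Xiv
  rw [norm_smul, mul_pow, Complex.norm_real, Real.norm_eq_abs, sq_abs, ← hP, e2, e1]
  have h6 : (1 + q ^ 2 : ℝ) ≠ 0 := by positivity
  field_simp
  ring

/-- **(iv)** vectors which represent the derivative on words of length at most `d` -/
theorem X4 (F : FockSys T (Let r)) (q : ℝ) (hq : 0 < q) (hr : 1 ≤ r)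
    (hq2 : 2500 * (r : ℝ) ^ ((3 : ℝ) / 2) ≤ q ^ 2)
    (hr2 : 16384 * (r : ℝ) ^ ((3 : ℝ) / 2) ≤ (r : ℝ) ^ 3) (d : ℕ) :
    ∃ ξ : J r → H, (∀ j, ∀ w : List (K r), w.length ≤ d →
      inner ℂ (ξ j) (wordOp (Xop F q) w T.Ω) = dq T (Xop F q) (Sum.inr j) w) ∧
      ∑ j, ‖ξ j‖ ^ 2 ≤ (r : ℝ) ^ 3 / (1 + q ^ 2) - (r : ℝ) ^ 3 / (1 + q ^ 2) ^ 2 := by
  refine ⟨Xiv F q (d + 1) (d + 2), fun j w hw =>
    X4_Xiv_inner F q hq.ne' _ _ j w (by omega) (by omega), ?_⟩
  have h1 : ∀ j : J r, ‖Xiv F q (d + 1) (d + 2) j‖ ^ 2 ≤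
      (q ^ 2 - 1 + ‖Psv F q (d + 1) (d + 2) j‖ ^ 2) / (1 + q ^ 2) ^ 2 := by
    intro j
    rw [X4_Xiv_norm F q hq.ne' _ _ (by omega) (by omega)]
    have := X4_norm_Zv F j
    refine div_le_div_of_nonneg_right ?_ (by positivity)
    linarith
  refine (Finset.sum_le_sum fun j _ => h1 j).trans ?_
  rw [← Finset.sum_div, Finset.sum_add_distrib, Finset.sum_const, Finset.card_univ]
  have h2 : ∑ j : J r, ‖Psv F q (d + 1) (d + 2) j‖ ^ 2 ≤ 16384 * (r : ℝ) ^ ((3 : ℝ) / 2) := by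
    simp only [X4_norm_Psv]
    exact Psi_bound r hr q hq hq2 (d + 1) (d + 2)
  have h3 : (Fintype.card (J r) : ℝ) = (r : ℝ) ^ 3 := by
    simp only [Fintype.card_prod, Fintype.card_fin]
    push_cast
    ring
  rw [nsmul_eq_mul, h3]
  have h4 : (0 : ℝ) < 1 + q ^ 2 := by positivity
  rw [div_sub_div _ _ h4.ne' (by positivity), div_le_div_iff₀ (by positivity) (by positivity)]
  have h5 : (r : ℝ) ^ 3 * (q ^ 2 - 1) + ∑ j : J r, ‖Psv F q (d + 1) (d + 2) j‖ ^ 2 ≤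
      (r : ℝ) ^ 3 * q ^ 2 := by nlinarith
  have h6 : (r : ℝ) ^ 3 * (1 + q ^ 2) ^ 2 - (1 + q ^ 2) * (r : ℝ) ^ 3 =
      (1 + q ^ 2) * ((r : ℝ) ^ 3 * q ^ 2) := by ring
  rw [h6]
  have h7 : (1 + q ^ 2) * ((r : ℝ) ^ 3 * q ^ 2) * (1 + q ^ 2) ^ 2 =
      ((r : ℝ) ^ 3 * q ^ 2) * ((1 + q ^ 2) * (1 + q ^ 2) ^ 2) := by ring
  rw [h7]
  exact mul_le_mul_of_nonneg_right h5 (by positivity)

end P087
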