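import Vale.Agent.Lib.P087.P.X12
import Vale.Agent.Lib.P087.P.X4

/-! P087 part P: definition of the vectors (iii). -/

open scoped ENNReal

namespace P087

variable {H : Type} [NormedAddCommGroup H] [InnerProductSpace ℂ H] [CompleteSpace H]
variable {T : TracialVN H} {r : ℕ}

/-- the word `u* s_j v*` -/
def wC (j : J r) (uv : List (Fin r) × List (Fin r)) : List (Let r) :=
  uv.1.reverse.map hid ++ inn j :: uv.2.reverse.map hid

/-- `V_{a,j} = Σ_{(u,v) ∈ D_a Z_j} u* s_j v* Ω` -/
noncomputable def VC (F : FockSys T (Let r)) (a : Fin r) (j : J r) : H :=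
  ((Dp a (Sum.inr j)).map fun uv => wordOp F.y (wC j uv) T.Ω).sum

/-- the vector (iii) -/
noncomputable def XiC (F : FockSys T (Let r)) (a : Fin r) : H :=
  F.e [hid a] - ∑ j : J r, VC F a j

end P087
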