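import Vale.Agent.Lib.P087.P.Coef
import Vale.Agent.Lib.P087.Conj

/-! P087 part P: conjugate vectors (i) and (ii) of section 2. -/

open scoped ENNReal

namespace P087

variable {H : Type} [NormedAddCommGroup H] [InnerProductSpace ℂ H] [CompleteSpace H]

variable {T : TracialVN H} {r : ℕ} (F : FockSys T (Let r))

/-- inner products with the vectors `X_w(t) Ω` -/
theorem inner_Xop (q : ℝ) (ξ : H) (f : List (Let r) → ℝ)
    (hf : ∀ Q, inner ℂ ξ (wordOp F.y Q T.Ω) = ((f Q : ℝ) : ℂ)) (w : List (K r)) :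
    inner ℂ ξ (wordOp (Xop F q) w T.Ω) = ((ext q f w : ℝ) : ℂ) := by
  rw [inner_word_Xop, ← ext_ofReal]
  simp only [hf]

/-- existence of the conjugate vector and upper bound of its norm, from a vector `ξ` -/
theorem exists_conj (q : ℝ) (j : K r) (ξ : H) (f : List (Let r) → ℝ)
    (hf : ∀ Q, inner ℂ ξ (wordOp F.y Q T.Ω) = ((f Q : ℝ) : ℂ))
    (hw : ∀ w, ext q f w = ssum j (fun u v => ext q mom u * ext q mom v) w) :
    ∃ η, IsConj T (Xop F q) j η ∧ ‖η‖ ≤ ‖ξ‖ := by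
  obtain ⟨η, h1, h2, h3⟩ := Conj.exists_proj (fun w => wordOp (Xop F q) w T.Ω)
    (fun w => dq T (Xop F q) j w) ξ (fun w => by
      rw [inner_Xop F q ξ f hf, hw, dq_X])
  exact ⟨η, ⟨h1, h2⟩, h3⟩

/-- (i): the outer noise -/
theorem exists_conj_out (q : ℝ) (hq : 0 < q) (j : K r) :
    ∃ η, IsConj T (Xop F q) j η ∧ ‖η‖ ≤ q⁻¹ := by
  obtain ⟨η, h1, h2⟩ := exists_conj F q j (((q⁻¹ : ℝ) : ℂ) • F.e [out j])
    (fun Q => q⁻¹ * cf Q [out j]) (fun Q => by
      rw [inner_smul_left, inner_e_word, Complex.conj_ofReal, Complex.ofReal_mul]) (fun w => by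
      rw [ext_const_mul]
      have h : (fun Q => cf Q [out j]) = fun Q =>
          ssum (out j) (fun Q₁ Q₂ => mom Q₁ * mom Q₂) Q := by
        funext Q
        exact cf_split Q [] [] (out j)
      rw [h, ext_ssum_out, ← mul_assoc, inv_mul_cancel₀ hq.ne', one_mul])
  refine ⟨η, h1, h2.trans (le_of_eq ?_)⟩
  rw [norm_smul, F.e_on.1, mul_one, Complex.norm_real, Real.norm_of_nonneg (by positivity)]

/-- (ii): inner and outer noise -/
theorem exists_conj_inn (q : ℝ) (j : J r) :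
    ∃ η, IsConj T (Xop F q) (Sum.inr j) η ∧ ‖η‖ ^ 2 ≤ 1 / (1 + q ^ 2) := by
  have hp : 0 < 1 + q ^ 2 := by positivity
  obtain ⟨η, h1, h2⟩ := exists_conj F q (Sum.inr j)
    ((((1 + q ^ 2)⁻¹ : ℝ) : ℂ) • (F.e [inn j] + ((q : ℝ) : ℂ) • F.e [out (Sum.inr j)]))
    (fun Q => (1 + q ^ 2)⁻¹ * (cf Q [inn j] + q * cf Q [out (Sum.inr j)])) (fun Q => by
      rw [inner_smul_left, inner_add_left, inner_smul_left, inner_e_word, inner_e_word,
        Complex.conj_ofReal, Complex.conj_ofReal, Complex.ofReal_mul, Complex.ofReal_add,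
        Complex.ofReal_mul]) (fun w => by
      rw [ext_const_mul, ext_add, ext_const_mul]
      have h : (fun Q => cf Q [out (Sum.inr j)]) = fun Q =>
          ssum (out (Sum.inr j)) (fun Q₁ Q₂ => mom Q₁ * mom Q₂) Q := by
        funext Q
        exact cf_split Q [] [] _
      have h' : (fun Q => cf Q [(inn j : Let r)]) = fun Q =>
          ssum (inn j) (fun Q₁ Q₂ => mom Q₁ * mom Q₂) Q := by
        funext Q
        exact cf_split Q [] [] _
      rw [h, h', ext_ssum_out, ext_ssum_inn]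
      field_simp)
  refine ⟨η, h1, (pow_le_pow_left₀ (norm_nonneg _) h2 2).trans (le_of_eq ?_)⟩
  have ho : inner ℂ (F.e [inn j]) (((q : ℝ) : ℂ) • F.e [out (Sum.inr j)]) = 0 := by
    rw [inner_smul_right, F.e_on.2 (by simp), mul_zero]
  have hn : ‖F.e [inn j] + ((q : ℝ) : ℂ) • F.e [out (Sum.inr j)]‖ ^ 2 = 1 + q ^ 2 := by
    rw [@norm_add_sq ℂ, ho, norm_smul, F.e_on.1, F.e_on.1, Complex.norm_real]
    simp
  rw [norm_smul, mul_pow, hn, Complex.norm_real, Real.norm_of_nonneg (by positivity)]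
  field_simp

end P087
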