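import Vale.Agent.Lib.P087.P.Bounds
import Vale.Agent.Lib.P087.P.X12
import Vale.Agent.Lib.P087.P.X4

/-! P087 P/Final: the lower bound of `χ*`, from the vectors (iii). -/

open scoped ENNReal

namespace P087

variable {H : Type} [NormedAddCommGroup H] [InnerProductSpace ℂ H] [CompleteSpace H]
variable {T : TracialVN H} {r : ℕ}

/-- the bound of `χ*` for `r = 10^12`; `hiii` is the part (iii) of section 2 -/
theorem chiStar_gt_of_hid (F : FockSys T (Let r)) (hr : r = 10 ^ 12)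
    (hiii : ∀ q : ℝ, 0 < q → ∀ a : Fin r, ∃ ξ : H,
      (∀ w : List (K r), inner ℂ ξ (wordOp (Xop F q) w T.Ω) = dq T (Xop F q) (Sum.inl a) w) ∧
        ‖ξ‖ ^ 2 ≤ 244 * (r : ℝ) ^ 2) :
    ((Fintype.card (K r) / 2 * Real.log (2 * Real.pi * Real.exp 1) : ℝ) : EReal) <
      chiStar T (Xop F 0) (fun i => F.y (out i)) := by
  have hR : (r : ℝ) = 10 ^ 12 := by rw [hr]; norm_num
  have hpow : (r : ℝ) ^ ((3 : ℝ) / 2) = 10 ^ 18 := by
    rw [hR, show ((10 : ℝ) ^ 12) = ((10 : ℝ) ^ 6) ^ (2 : ℝ) by norm_num,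
      ← Real.rpow_mul (by norm_num)]
    norm_num
  refine chiStar_Xop_gt F hr (fun q hq i => ?_) (fun q hq j => ?_) hiii
    (fun q hq hq2 d => ?_)
  · obtain ⟨η, h1, h2⟩ := exists_conj_out F q hq i
    refine ⟨η, h1.2, ?_⟩
    calc ‖η‖ ^ 2 ≤ (q⁻¹) ^ 2 := pow_le_pow_left₀ (norm_nonneg _) h2 2
      _ = 1 / q ^ 2 := by rw [inv_pow, one_div]
  · obtain ⟨η, h1, h2⟩ := exists_conj_inn F q j
    exact ⟨η, h1.2, h2⟩
  · refine X4 F q hq (by rw [hr]; norm_num) hq2 ?_ d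
    rw [hpow, hR]
    norm_num

end P087
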