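import Vale.Agent.Lib.P087.P.DefC

/-! P087 part P: inner products of the words in (iii). -/

open scoped ENNReal

namespace P087

variable {H : Type} [NormedAddCommGroup H] [InnerProductSpace ℂ H] [CompleteSpace H]
variable {T : TracialVN H} {r : ℕ}

theorem GramC_ssum_hid (j : J r) (F : List (Let r) → List (Let r) → ℝ) (L : List (Fin r)) :
    ssum (inn j) F (L.map hid) = 0 := by
  induction L generalizing F with
  | nil => exact ssum_nil _ _
  | cons a L ih =>
    rw [List.map_cons, ssum_cons, ih, add_zero, if_neg]
    simp

theorem GramC_ssum_mid (j j' : J r) (F : List (Let r) → List (Let r) → ℝ) (A B : List (Fin r)) :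
    ssum (inn j) F (A.map hid ++ inn j' :: B.map hid) =
      if j = j' then F (A.map hid) (B.map hid) else 0 := by
  rw [ssum_append, GramC_ssum_hid, zero_add, ssum_cons, GramC_ssum_hid, add_zero, List.append_nil]
  by_cases h : j = j'
  · subst h
    simp
  · rw [if_neg h, if_neg]
    intro h2
    apply h
    simpa using h2.symm

theorem GramC_mom (j j' : J r) (A B C : List (Fin r)) :
    mom (A.map hid ++ inn j :: (B.map hid ++ inn j' :: C.map hid) : List (Let r)) =
      if j = j' then mom (B.map hid : List (Let r)) * mom ((C ++ A).map hid : List (Let r)) else 0 := by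
  rw [mom_comm, List.cons_append, List.append_assoc, List.cons_append, ← List.map_append,
    mom_cons, GramC_ssum_mid]

/-- the inner product of two words with one inner noise letter each (`inner_word_word`, `mom_comm`, `mom_cons`) -/
theorem inner_wC_wC (F : FockSys T (Let r)) (j j' : J r) (uv uv' : List (Fin r) × List (Fin r)) :
    inner ℂ (wordOp F.y (wC j uv) T.Ω) (wordOp F.y (wC j' uv') T.Ω) =
      (((if j = j' then mom ((uv.1 ++ uv'.1.reverse).map hid : List (Let r)) *
        mom ((uv'.2.reverse ++ uv.2).map hid : List (Let r)) else 0 : ℝ)) : ℂ) := by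
  rw [inner_word_word]
  congr 1
  have h : (wC j uv).reverse ++ wC j' uv' =
      (uv.2.map hid ++ inn j :: ((uv.1 ++ uv'.1.reverse).map hid ++
        inn j' :: (uv'.2.reverse).map hid) : List (Let r)) := by
    unfold wC
    simp [List.map_append, List.append_assoc]
  rw [h, GramC_mom]

theorem inner_hid_wC (F : FockSys T (Let r)) (a : Fin r) (j : J r)
    (uv : List (Fin r) × List (Fin r)) :
    inner ℂ (F.e [hid a]) (wordOp F.y (wC j uv) T.Ω) = 0 := by
  have h1 : F.e [hid a] = wordOp F.y [hid a] T.Ω := by
    rw [wordOp_cons, wordOp_nil, mul_one, ← F.e_nil, F.act_nil]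
  rw [h1, inner_word_word]
  have h2 : mom ([hid a].reverse ++ wC j uv) = 0 := by
    have h3 : ([hid a].reverse ++ wC j uv : List (Let r)) =
        ((a :: uv.1.reverse).map hid ++ inn j :: uv.2.reverse.map hid) := by
      unfold wC
      simp
    rw [h3, mom_comm, List.cons_append, ← List.map_append, mom_cons, GramC_ssum_hid]
  rw [h2]
  simp

end P087
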